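import Vale.Agent.P313.AC.FOT

/-!
`BPL` is in logspace-uniform `AC^1`: the operator (module F), its meaning, statements of the
pieces.
-/

namespace Vale.Agent.P313.AC

open Finset

/-- Constants, parameters and the chain of a machine. -/
structure Dat where
  c : ℕ
  κ : ℕ
  j0 : ℕ
  e : ℕ
  p : ℕ → Pr
  st : ℕ → ℕ
  ps : ℕ → ℕ → ℕ
  nx : ℕ → ℕ → ℕ → ℕ → ℕ

/-- The assumptions. -/
structure Dat.Ok (D : Dat) : Prop where
  hκ : 1 ≤ D.κ
  hj : 1 ≤ D.j0
  good : ∀ n, Good D.c D.κ D.j0 n (D.p n)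
  goodF : GoodF D.κ D.j0 D.e D.p
  nst : NF (fun a : Fin 1 → ℕ => D.st (a 0))
  nps : NF (fun a : Fin 2 → ℕ => D.ps (a 0) (a 1))
  nnx : NF (fun a : Fin 4 → ℕ => D.nx (a 0) (a 1) (a 2) (a 3))
  lst : ∀ n, D.st n < (D.p n).N
  lnx : ∀ n s b, ∀ u < (D.p n).N, D.nx n s u b < (D.p n).N

/-! ### Numeric functions -/

section num

variable (D : Dat) (n : ℕ)

/-- Base. -/
def gB : ℕ := 2 ^ (D.p n).b

/-- Number of columns of the table of pairs of digits. -/
def gJ : ℕ := (D.p n).f ^ D.j0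

/-- Precision of a pair of digits (truncated). -/
def gm (l t i j : ℕ) : ℕ := min (prc (D.p n).b l t i j) ((D.p n).tm + 3)

/-- Inverse of the relative error. -/
def gBm (m : ℕ) : ℕ := gB D n ^ m

/-- Largest size counted exactly. -/
def gK0 (m : ℕ) : ℕ := gB D n ^ (2 * m + 1)

/-- Number of buckets. -/
def gKb (m : ℕ) : ℕ := gB D n ^ (4 * m + 3)

/-- Height of the counting tree. -/
def gr (m : ℕ) : ℕ := D.κ * (4 * m + 3)

/-- Number of seeds of the amplification. -/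
def gR : ℕ := (D.p n).P ^ 2 * 8 ^ (D.p n).τ

/-- Product of two digits, positive part (`sg = 0`) or negative part. -/
def gpd (sg c1 c2 d1 d2 : ℕ) : ℕ :=
  if sg = 0 then (c1 - c2) * (d1 - d2) + (c2 - c1) * (d2 - d1)
  else (c1 - c2) * (d2 - d1) + (c2 - c1) * (d1 - d2)

/-- Entry of the scaled mixed matrix when the input head sees the symbol `s`. -/
def gA0 (s u y : ℕ) : ℕ :=
  ((if D.nx n s u 0 = y then 1 else 0) + (if D.nx n s u 1 = y then 1 else 0)) *
    (((D.p n).Q - (D.p n).Q / 2 ^ (D.p n).g0) / 2) + (D.p n).Q / (2 ^ (D.p n).g0 * (D.p n).N)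

end num

/-! ### Addresses -/

/-- Value of the digit `t` of level `l`, entry `(u, y)`. -/
def aA (l t u y v : ℕ) : Fin 14 → ℕ := ![0, l, t, 0, 0, 0, u, y, 0, 0, 0, 0, 0, v]

/-- Node `w` of height `s` of a counting tree. -/
def aT (l t i j sg u y K g h s w v : ℕ) : Fin 14 → ℕ := ![1, l, t, i, j, sg, u, y, K, g, h, s, w, v]

/-- Estimate for a pair of digits. -/
def aE (l t i j sg u y v : ℕ) : Fin 14 → ℕ := ![2, l, t, i, j, sg, u, y, 0, 0, 0, 0, 0, v]

/-- Node `w` of height `s` of the tree which adds the estimates. -/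
def aS (l t sg u y s w v : ℕ) : Fin 14 → ℕ := ![3, l, t, 0, 0, sg, u, y, 0, 0, 0, s, w, v]

/-- The output. -/
def aO : Fin 14 → ℕ := ![4, 0, 0, 0, 0, 0, 0, 0, 0, 0, 0, 0, 0, 0]

/-! ### The operator -/

section op

variable (D : Dat)

/-- Bound for all quantifiers. -/
def nb (x : List Bool) : ℕ := (x.length + 2) ^ D.e

/-- `v` is the sum of the numbers `c i`, `i < f`, where `Y i` holds only for `c i`. -/
def adp (x : List Bool) (v : ℕ) (Y : ℕ → ℕ → Prop) : Prop :=
  v < (D.p x.length).V ∧ ∀ q < (x.length + 2) ^ D.e, 1 ≤ q → q < (D.p x.length).Lq →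
    ∃ r < (x.length + 2) ^ D.e, r < q ^ (D.p x.length).f ∧
      (∑ i ∈ range (D.p x.length).f, r / q ^ i % q) % q = v % q ∧
      ∀ i < (x.length + 2) ^ D.e, i < (D.p x.length).f →
        ∃ c < (x.length + 2) ^ D.e, c % q = r / q ^ i % q ∧ Y i c

/-- The symbol in cell `q` is `s`. -/
def sympr (x : List Bool) (q s : ℕ) : Prop :=
  (q = 0 ∧ s = 0) ∨ (1 ≤ q ∧ x.length < q ∧ s = 1) ∨
    (1 ≤ q ∧ q ≤ x.length ∧ ¬ x[q - 1]? = some true ∧ s = 2) ∨
    (1 ≤ q ∧ q ≤ x.length ∧ x[q - 1]? = some true ∧ s = 3)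

/-- `c1 - c2` is the digit `i` of level `l`. -/
def dgp (x : List Bool) (X : (Fin 14 → ℕ) → Prop) (l i u y c1 c2 : ℕ) : Prop :=
  X (aA l i u y c1) ∧ ((i = t0 (D.p x.length).b l ∧ c2 = 0) ∨
    (i ≠ t0 (D.p x.length).b l ∧ X (aA l (i - 1) u y c2)))

/-- Level `0`. -/
def opA0 : Op 14 14 := fun x _ a => ∃ s < (x.length + 2) ^ D.e,
  sympr x (D.ps x.length (a 6)) s ∧ a 13 = gA0 D x.length s (a 6) (a 7)

/-- Levels above `0`. -/
def opA1 : Op 14 14 := fun x X a => ∃ q1 < (x.length + 2) ^ D.e, ∃ q2 < (x.length + 2) ^ D.e,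
  X (aS (a 1 - 1) (a 2) 0 (a 6) (a 7) (2 * D.j0) 0 q1) ∧
  X (aS (a 1 - 1) (a 2) 1 (a 6) (a 7) (2 * D.j0) 0 q2) ∧ a 13 = (q1 - q2) / (D.p x.length).Q

/-- The bucket `a 12` is not empty. -/
def opBit : Op 14 14 := fun x X a => ∃ z < (x.length + 2) ^ D.e, z < (D.p x.length).U ∧
  sam (D.p x.length).P (wK (D.p x.length).P (gK0 D x.length (gm D x.length (a 1) (a 2) (a 3) (a 4)))
    (a 8)) (a 9) z ∧
  buc (D.p x.length).P ((D.p x.length).P /
    gKb D x.length (gm D x.length (a 1) (a 2) (a 3) (a 4)) + 1) (a 10) z = a 12 ∧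
  ∃ c1 < (x.length + 2) ^ D.e, ∃ c2 < (x.length + 2) ^ D.e,
  ∃ d1 < (x.length + 2) ^ D.e, ∃ d2 < (x.length + 2) ^ D.e,
    dgp D x X (a 1) (a 3) (a 6) (z / (D.p x.length).C) c1 c2 ∧
    dgp D x X (a 1) (a 4) (z / (D.p x.length).C) (a 7) d1 d2 ∧
    z % (D.p x.length).C < gpd (a 5) c1 c2 d1 d2

/-- Leaves of the counting trees. -/
def opT0 : Op 14 14 := fun x X a =>
  (a 13 = 1 ∧ opBit D x X a) ∨ (a 13 = 0 ∧ ¬ opBit D x X a)

/-- Inner nodes of the counting trees. -/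
def opT1 : Op 14 14 := fun x X a => adp D x (a 13) (fun i c =>
  X (aT (a 1) (a 2) (a 3) (a 4) (a 5) (a 6) (a 7) (a 8) (a 9) (a 10) (a 11 - 1)
    (a 12 * (D.p x.length).f + i) c))

/-- The test for the size `K`. -/
def opTs (x : List Bool) (X : (Fin 14 → ℕ) → Prop) (a : Fin 14 → ℕ) (K : ℕ) : Prop :=
  ∃ w < (x.length + 2) ^ D.e, w < gR D x.length ^ 40 ∧ ∀ r < (x.length + 2) ^ D.e,
    r < gR D x.length → ∃ i < (x.length + 2) ^ D.e, i < 40 ∧ ∃ j < (x.length + 2) ^ D.e,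
      j < (D.p x.length).τ + 1 ∧ ∃ h < (x.length + 2) ^ D.e, h < (D.p x.length).P ^ 2 ∧
        ∃ c < (x.length + 2) ^ D.e,
          tK (D.p x.length).P (gK0 D x.length (gm D x.length (a 1) (a 2) (a 3) (a 4)))
            (gBm D x.length (gm D x.length (a 1) (a 2) (a 3) (a 4))) K ≤ c ∧
          X (aT (a 1) (a 2) (a 3) (a 4) (a 5) (a 6) (a 7) K
            (mwk (D.p x.length).P ((r + w / gR D x.length ^ i) % gR D x.length) j) h
            (gr D (gm D x.length (a 1) (a 2) (a 3) (a 4))) 0 c)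

/-- The estimate. -/
def opE : Op 14 14 := fun x X a => a 13 ≤ (D.p x.length).U ∧ (a 13 = 0 ∨ opTs D x X a (a 13)) ∧
  ∀ K < (x.length + 2) ^ D.e, K ≤ (D.p x.length).U → a 13 < K → ¬ opTs D x X a K

/-- Leaves of the tree which adds the estimates. -/
def opS0 : Op 14 14 := fun x X a =>
  (okp (D.p x.length).b (a 1) (a 2) (a 12 / gJ D x.length) (a 12 % gJ D x.length) ∧
    X (aE (a 1) (a 2) (a 12 / gJ D x.length) (a 12 % gJ D x.length) (a 5) (a 6) (a 7) (a 13))) ∨
  (¬ okp (D.p x.length).b (a 1) (a 2) (a 12 / gJ D x.length) (a 12 % gJ D x.length) ∧ a 13 = 0)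

/-- Inner nodes of the tree which adds the estimates. -/
def opS1 : Op 14 14 := fun x X a => adp D x (a 13) (fun i c =>
  X (aS (a 1) (a 2) (a 5) (a 6) (a 7) (a 11 - 1) (a 12 * (D.p x.length).f + i) c))

/-- The output. -/
def opO : Op 14 14 := fun x X _ => ∃ v < (x.length + 2) ^ D.e, (D.p x.length).Q ≤ 2 * v ∧
  X (aA (D.p x.length).L (D.p x.length).tm (D.st x.length) 0 v)

/-- The operator. -/
def opF : Op 14 14 := fun x X a =>
  (a 0 = 0 ∧ a 1 = 0 ∧ opA0 D x X a) ∨ (a 0 = 0 ∧ a 1 ≠ 0 ∧ opA1 D x X a) ∨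
  (a 0 = 1 ∧ a 11 = 0 ∧ opT0 D x X a) ∨ (a 0 = 1 ∧ a 11 ≠ 0 ∧ opT1 D x X a) ∨
  (a 0 = 2 ∧ opE D x X a) ∨
  (a 0 = 3 ∧ a 11 = 0 ∧ opS0 D x X a) ∨ (a 0 = 3 ∧ a 11 ≠ 0 ∧ opS1 D x X a) ∨
  (a 0 = 4 ∧ opO D x X a)

end op

/-! ### Meaning -/

section sem

variable (D : Dat) (x : List Bool)

open Classical in
/-- The set behind a sum of the numbers `v k`, `k < N`. -/
noncomputable def sV (v : ℕ → ℕ) : Finset ℕ :=
  {z ∈ range (D.p x.length).U | z % (D.p x.length).C < v (z / (D.p x.length).C)}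

/-- The estimate of a sum. -/
noncomputable def apxx (m : ℕ) (v : ℕ → ℕ) : ℕ :=
  est (D.p x.length).P (D.p x.length).τ (gBm D x.length m) (gK0 D x.length m) (gKb D x.length m)
    (D.p x.length).U (sV D x v)

/-- The chain. -/
def nxt (u b : ℕ) : ℕ := D.nx x.length (symc x (D.ps x.length u)) u b

/-- The scaled mixed matrix. -/
def vA0 (u y : ℕ) : ℕ := gA0 D x.length (symc x (D.ps x.length u)) u y

/-- The approximations. -/
noncomputable def vA (l t u y : ℕ) : ℕ :=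
  AA (D.p x.length).b (D.p x.length).Q (gJ D x.length) (apxx D x) (vA0 D x) l t u y

/-- The set behind a pair of digits. -/
noncomputable def vZ (l i j sg u y : ℕ) : Finset ℕ :=
  sV D x (fun k => prd (D.p x.length).b l (vA D x l) sg i j u y k)

/-- The bucket `w` is not empty. -/
def vB (l t i j sg u y K g h w : ℕ) : Prop :=
  ∃ z ∈ vZ D x l i j sg u y,
    sam (D.p x.length).P (wK (D.p x.length).P
      (gK0 D x.length (prc (D.p x.length).b l t i j)) K) g z ∧
    buc (D.p x.length).P ((D.p x.length).P /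
      gKb D x.length (prc (D.p x.length).b l t i j) + 1) h z = w

open Classical in
/-- Number of nonempty buckets below the node `w` of height `s`. -/
noncomputable def vT (l t i j sg u y K g h s w : ℕ) : ℕ :=
  #{w0 ∈ Ico (w * (D.p x.length).f ^ s) ((w + 1) * (D.p x.length).f ^ s) |
    vB D x l t i j sg u y K g h w0}

/-- The estimate. -/
noncomputable def vE (l t i j sg u y : ℕ) : ℕ :=
  apxx D x (prc (D.p x.length).b l t i j)
    (fun k => prd (D.p x.length).b l (vA D x l) sg i j u y k)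

/-- Sum of the estimates below the node `w` of height `s`. -/
noncomputable def vS (l t sg u y s w : ℕ) : ℕ :=
  ∑ w0 ∈ Ico (w * (D.p x.length).f ^ s) ((w + 1) * (D.p x.length).f ^ s),
    pva (D.p x.length).b (apxx D x) l t (vA D x l) sg u y (w0 / gJ D x.length)
      (w0 % gJ D x.length)

/-- Time when the digit `t` of level `l` is ready. -/
def rA (l t : ℕ) : ℕ := (15 * D.κ + 4 + 2 * D.j0) * l + 4 * D.κ * t + 1
/-- Time of the nodes of height `s` of the counting trees. -/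
def rT (l i j s : ℕ) : ℕ := (15 * D.κ + 4 + 2 * D.j0) * l + 4 * D.κ * max i j + 2 + s
/-- Time of the estimates. -/
def rE (l t i j : ℕ) : ℕ := (15 * D.κ + 4 + 2 * D.j0) * l + 4 * D.κ * max i j + 3 +
  gr D (prc (D.p x.length).b l t i j)
/-- Time of the nodes of height `s` of the trees which add the estimates. -/
def rS (l t s : ℕ) : ℕ := (15 * D.κ + 4 + 2 * D.j0) * l + 4 * D.κ * t + 15 * D.κ + 4 + s

/-- Everything which should be ready at time `T` is right in `X`. -/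
structure Inv (X : (Fin 14 → ℕ) → Prop) (T : ℕ) : Prop where
  cA : ∀ l t u y v, l ≤ (D.p x.length).L → t0 (D.p x.length).b l ≤ t → t ≤ (D.p x.length).tm →
    u < (D.p x.length).N → y < (D.p x.length).N → v < (x.length + 2) ^ D.e → rA D l t ≤ T →
    (X (aA l t u y v) ↔ v = vA D x l t u y)
  cT : ∀ l t i j sg u y K g h s w v, l + 1 ≤ (D.p x.length).L →
    t ≤ (D.p x.length).tm → okp (D.p x.length).b l t i j → sg < 2 → u < (D.p x.length).N →
    y < (D.p x.length).N → K ≤ (D.p x.length).U → g < (D.p x.length).P ^ 2 →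
    h < (D.p x.length).P ^ 2 → (w + 1) * (D.p x.length).f ^ s ≤
      gKb D x.length (prc (D.p x.length).b l t i j) →
    v < (x.length + 2) ^ D.e → rT D l i j s ≤ T →
    (X (aT l t i j sg u y K g h s w v) ↔ v = vT D x l t i j sg u y K g h s w)
  cE : ∀ l t i j sg u y v, l + 1 ≤ (D.p x.length).L → t ≤ (D.p x.length).tm →
    okp (D.p x.length).b l t i j → sg < 2 → u < (D.p x.length).N → y < (D.p x.length).N →
    v < (x.length + 2) ^ D.e → rE D x l t i j ≤ T →
    (X (aE l t i j sg u y v) ↔ v = vE D x l t i j sg u y)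
  cS : ∀ l t sg u y s w v, l + 1 ≤ (D.p x.length).L → t ≤ (D.p x.length).tm → sg < 2 →
    u < (D.p x.length).N → y < (D.p x.length).N →
    (w + 1) * (D.p x.length).f ^ s ≤ gJ D x.length * gJ D x.length →
    v < (x.length + 2) ^ D.e → rS D l t s ≤ T →
    (X (aS l t sg u y s w v) ↔ v = vS D x l t sg u y s w)

end sem

/-! ### Statements of the pieces -/

/-- The operator is first-order. -/
def ModF1 : Prop := ∀ D : Dat, D.Ok → FO (opF D)

/-- The approximations are bounded (this follows from `ModD`). -/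
def Bdd (D : Dat) (x : List Bool) : Prop := ∀ l t u y, l ≤ (D.p x.length).L →
  t0 (D.p x.length).b l ≤ t → t ≤ (D.p x.length).tm → u < (D.p x.length).N →
  y < (D.p x.length).N → vA D x l t u y ≤ 2 * (D.p x.length).Q

/-- Level `0` is right. -/
def ModF2 : Prop := ∀ (D : Dat) (x : List Bool), D.Ok → ∀ l t u y v X, l = 0 →
  u < (D.p x.length).N → y < (D.p x.length).N → v < (x.length + 2) ^ D.e →
  (opF D x X (aA l t u y v) ↔ v = vA D x l t u y)

/-- Higher levels. -/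
def ModF3 : Prop := ∀ (D : Dat) (x : List Bool), D.Ok → Bdd D x → ∀ T X, Inv D x X T →
  ∀ l t u y v, l + 1 ≤ (D.p x.length).L → t0 (D.p x.length).b (l + 1) ≤ t →
  t ≤ (D.p x.length).tm →
  u < (D.p x.length).N → y < (D.p x.length).N → v < (x.length + 2) ^ D.e →
  rA D (l + 1) t ≤ T + 1 →
  (opF D x X (aA (l + 1) t u y v) ↔ v = vA D x (l + 1) t u y)

/-- Counting trees. -/
def ModF4 : Prop := ∀ (D : Dat) (x : List Bool), D.Ok → Bdd D x → ∀ T X, Inv D x X T →
  ∀ l t i j sg u y K g h s w v, l + 1 ≤ (D.p x.length).L →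
    t ≤ (D.p x.length).tm → okp (D.p x.length).b l t i j → sg < 2 → u < (D.p x.length).N →
    y < (D.p x.length).N → K ≤ (D.p x.length).U → g < (D.p x.length).P ^ 2 →
    h < (D.p x.length).P ^ 2 → (w + 1) * (D.p x.length).f ^ s ≤
      gKb D x.length (prc (D.p x.length).b l t i j) →
    v < (x.length + 2) ^ D.e → rT D l i j s ≤ T + 1 →
    (opF D x X (aT l t i j sg u y K g h s w v) ↔ v = vT D x l t i j sg u y K g h s w)

/-- Estimates. -/
def ModF5 : Prop := ∀ (D : Dat) (x : List Bool), D.Ok → Bdd D x → ∀ T X, Inv D x X T →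
  ∀ l t i j sg u y v, l + 1 ≤ (D.p x.length).L → t ≤ (D.p x.length).tm →
    okp (D.p x.length).b l t i j → sg < 2 → u < (D.p x.length).N → y < (D.p x.length).N →
    v < (x.length + 2) ^ D.e → rE D x l t i j ≤ T + 1 →
    (opF D x X (aE l t i j sg u y v) ↔ v = vE D x l t i j sg u y)

/-- Sums of estimates. -/
def ModF6 : Prop := ∀ (D : Dat) (x : List Bool), D.Ok → Bdd D x → ∀ T X, Inv D x X T →
  ∀ l t sg u y s w v, l + 1 ≤ (D.p x.length).L → t ≤ (D.p x.length).tm → sg < 2 →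
    u < (D.p x.length).N → y < (D.p x.length).N →
    (w + 1) * (D.p x.length).f ^ s ≤ gJ D x.length * gJ D x.length →
    v < (x.length + 2) ^ D.e → rS D l t s ≤ T + 1 →
    (opF D x X (aS l t sg u y s w v) ↔ v = vS D x l t sg u y s w)

/-- The invariant holds at all times. -/
def ModF7 : Prop := ∀ (D : Dat) (x : List Bool), D.Ok → Bdd D x → ∀ T,
  Inv D x (it (opF D) D.e x T) T

end Vale.Agent.P313.AC
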