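import Vale.Agent.P313.AC.SpecA

/-!
First-order operators: terms and derived closure properties.
-/

namespace Vale.Agent.P313.AC

open Finset

/-- Numeric terms: functions of the length of the input and the variables. -/
def TF {k : ℕ} (τ : List Bool → (Fin k → ℕ) → ℕ) : Prop :=
  ∃ t : (Fin (k + 1) → ℕ) → ℕ, NF t ∧ ∀ x a, τ x a = t (Fin.cons x.length a)

/-- Numeric predicates of the length of the input and the variables. -/
def TP {k : ℕ} (P : List Bool → (Fin k → ℕ) → Prop) : Prop :=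
  ∃ t : (Fin (k + 1) → ℕ) → Prop, NP t ∧ ∀ x a, P x a ↔ t (Fin.cons x.length a)

variable {m k : ℕ}

theorem TF.len : TF (fun (x : List Bool) (_ : Fin k → ℕ) => x.length) :=
  ⟨fun a => a 0, LF.proj 0, fun _ _ => rfl⟩

theorem TF.var (i : Fin k) : TF (fun (_ : List Bool) (a : Fin k → ℕ) => a i) :=
  ⟨fun a => a i.succ, LF.proj _, fun _ _ => rfl⟩

theorem TF.const (c : ℕ) : TF (fun (_ : List Bool) (_ : Fin k → ℕ) => c) :=
  ⟨fun _ => c, LF.const c, fun _ _ => rfl⟩

theorem TF.comp {r : ℕ} {g : (Fin r → ℕ) → ℕ} (hg : NF g) {τ : Fin r → List Bool → (Fin k → ℕ) → ℕ}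
    (hτ : ∀ i, TF (τ i)) : TF (fun x a => g (fun i => τ i x a)) := by
  choose t ht h using hτ
  refine ⟨fun a => g (fun i => t i a), LF.comp (f := fun _ a => g a) hg ht, fun x a => ?_⟩
  simp only [h]

theorem TP.comp {r : ℕ} {g : (Fin r → ℕ) → Prop} (hg : NP g)
    {τ : Fin r → List Bool → (Fin k → ℕ) → ℕ}
    (hτ : ∀ i, TF (τ i)) : TP (fun x a => g (fun i => τ i x a)) := by
  choose t ht h using hτ
  refine ⟨fun a => g (fun i => t i a), ?_, fun x a => ?_⟩
  · exact LF.comp (f := fun _ a => ind (g a)) hg ht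
  · simp only [h]

theorem TF.congr {τ τ' : List Bool → (Fin k → ℕ) → ℕ} (h : TF τ) (e : ∀ x a, τ x a = τ' x a) :
    TF τ' := by
  have : τ = τ' := by funext x a; exact e x a
  rw [← this]; exact h

theorem TP.congr {P P' : List Bool → (Fin k → ℕ) → Prop} (h : TP P) (e : ∀ x a, P x a ↔ P' x a) :
    TP P' := by
  have : P = P' := by funext x a; exact propext (e x a)
  rw [← this]; exact h

/-- Skip the index `1`. -/
def sk1 (i : Fin (k + 1)) : Fin (k + 2) := Fin.cases 0 (fun j => j.succ.succ) i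

theorem cons_sk1 (n : ℕ) (a : Fin (k + 1) → ℕ) (i : Fin (k + 1)) :
    (Fin.cons n a : Fin (k + 2) → ℕ) (sk1 i) = (Fin.cons n (Fin.tail a) : Fin (k + 1) → ℕ) i := by
  refine Fin.cases ?_ (fun j => ?_) i
  · rfl
  · rfl

/-- Terms which do not use the variable `0`. -/
theorem TF.tail {τ : List Bool → (Fin k → ℕ) → ℕ} (h : TF τ) :
    TF (fun x (a : Fin (k + 1) → ℕ) => τ x (Fin.tail a)) := by
  obtain ⟨t, ht, h⟩ := h
  refine ⟨fun a => t (fun i => a (sk1 i)),
    LF.comp (f := fun _ a => t a) ht (fun i => LF.proj _), fun x a => ?_⟩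
  show τ x (Fin.tail a) = t _
  simp only [cons_sk1]
  exact h _ _

theorem TP.tail {P : List Bool → (Fin k → ℕ) → Prop} (h : TP P) :
    TP (fun x (a : Fin (k + 1) → ℕ) => P x (Fin.tail a)) := by
  obtain ⟨t, ht, h⟩ := h
  have h0 : LF (fun _ a => ind (t (fun i => a (sk1 i))) : Fn (k + 2)) :=
    LF.comp (f := fun _ a => ind (t a)) ht (fun i => LF.proj _)
  refine ⟨fun a => t (fun i => a (sk1 i)), h0, fun x a => ?_⟩
  show P x (Fin.tail a) ↔ t _
  simp only [cons_sk1]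
  exact h _ _

section bin

variable {σ τ : List Bool → (Fin k → ℕ) → ℕ}

theorem TF.bin {g : ℕ → ℕ → ℕ} (hg : ∀ {r : ℕ} {u v : Fn r}, LF u → LF v →
    LF (fun x a => g (u x a) (v x a))) (hσ : TF σ) (hτ : TF τ) :
    TF (fun x a => g (σ x a) (τ x a)) := by
  obtain ⟨s, hs, h1⟩ := hσ
  obtain ⟨t, ht, h2⟩ := hτ
  exact ⟨fun a => g (s a) (t a), hg hs ht, fun x a => by simp only [h1, h2]⟩

theorem TP.bin {g : ℕ → ℕ → Prop} (hg : ∀ {r : ℕ} {u v : Fn r}, LF u → LF v →
    LFP (fun x a => g (u x a) (v x a))) (hσ : TF σ) (hτ : TF τ) :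
    TP (fun x a => g (σ x a) (τ x a)) := by
  obtain ⟨s, hs, h1⟩ := hσ
  obtain ⟨t, ht, h2⟩ := hτ
  exact ⟨fun a => g (s a) (t a), hg hs ht, fun x a => by simp only [h1, h2]⟩

theorem TF.add (hσ : TF σ) (hτ : TF τ) : TF (fun x a => σ x a + τ x a) :=
  TF.bin (g := fun a b => a + b) (fun h h' => h.add h') hσ hτ
theorem TF.sub (hσ : TF σ) (hτ : TF τ) : TF (fun x a => σ x a - τ x a) :=
  TF.bin (g := fun a b => a - b) (fun h h' => h.sub h') hσ hτ
theorem TF.mul (hσ : TF σ) (hτ : TF τ) : TF (fun x a => σ x a * τ x a) :=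
  TF.bin (g := fun a b => a * b) (fun h h' => h.mul h') hσ hτ
theorem TF.div (hσ : TF σ) (hτ : TF τ) : TF (fun x a => σ x a / τ x a) :=
  TF.bin (g := fun a b => a / b) (fun h h' => h.div h') hσ hτ
theorem TF.mod (hσ : TF σ) (hτ : TF τ) : TF (fun x a => σ x a % τ x a) :=
  TF.bin (g := fun a b => a % b) (fun h h' => h.mod h') hσ hτ
theorem TF.max (hσ : TF σ) (hτ : TF τ) : TF (fun x a => Max.max (σ x a) (τ x a)) :=
  TF.bin (g := fun a b => Max.max a b) (fun h h' => h.max h') hσ hτ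
theorem TP.le (hσ : TF σ) (hτ : TF τ) : TP (fun x a => σ x a ≤ τ x a) :=
  TP.bin (g := fun a b => a ≤ b) (fun h h' => LFP.le h h') hσ hτ
theorem TP.lt (hσ : TF σ) (hτ : TF τ) : TP (fun x a => σ x a < τ x a) :=
  TP.bin (g := fun a b => a < b) (fun h h' => LFP.lt h h') hσ hτ
theorem TP.eq (hσ : TF σ) (hτ : TF τ) : TP (fun x a => σ x a = τ x a) :=
  TP.bin (g := fun a b => a = b) (fun h h' => LFP.eq h h') hσ hτ

theorem TF.powConst (hσ : TF σ) (c : ℕ) : TF (fun x a => σ x a ^ c) := by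
  obtain ⟨s, hs, h1⟩ := hσ
  exact ⟨fun a => s a ^ c, LF.powConst hs c, fun x a => by simp only [h1]⟩

theorem TF.ite {P : List Bool → (Fin k → ℕ) → Prop} [∀ x a, Decidable (P x a)] (hP : TP P)
    (hσ : TF σ) (hτ : TF τ) : TF (fun x a => if P x a then σ x a else τ x a) := by
  obtain ⟨s, hs, h1⟩ := hσ
  obtain ⟨t, ht, h2⟩ := hτ
  obtain ⟨p, hp, h3⟩ := hP
  classical
  refine ⟨fun a => if p a then s a else t a, LF.ite hp hs ht, fun x a => ?_⟩
  by_cases h : P x a
  · show (if P x a then σ x a else τ x a) = if p (Fin.cons x.length a) then _ else _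
    rw [if_pos h, if_pos ((h3 x a).1 h), h1]
  · show (if P x a then σ x a else τ x a) = if p (Fin.cons x.length a) then _ else _
    rw [if_neg h, if_neg (fun hc => h ((h3 x a).2 hc)), h2]

end bin

section prop

variable {P Q : List Bool → (Fin k → ℕ) → Prop}

theorem TP.not (hP : TP P) : TP (fun x a => ¬ P x a) := by
  obtain ⟨p, hp, h1⟩ := hP
  exact ⟨fun a => ¬ p a, LFP.not hp, fun x a => by simp only [h1]⟩

theorem TP.and (hP : TP P) (hQ : TP Q) : TP (fun x a => P x a ∧ Q x a) := by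
  obtain ⟨p, hp, h1⟩ := hP
  obtain ⟨q, hq, h2⟩ := hQ
  exact ⟨fun a => p a ∧ q a, LFP.and hp hq, fun x a => by simp only [h1, h2]⟩

theorem TP.or (hP : TP P) (hQ : TP Q) : TP (fun x a => P x a ∨ Q x a) := by
  obtain ⟨p, hp, h1⟩ := hP
  obtain ⟨q, hq, h2⟩ := hQ
  exact ⟨fun a => p a ∨ q a, LFP.or hp hq, fun x a => by simp only [h1, h2]⟩

theorem TP.imp (hP : TP P) (hQ : TP Q) : TP (fun x a => P x a → Q x a) := by
  obtain ⟨p, hp, h1⟩ := hP
  obtain ⟨q, hq, h2⟩ := hQ
  exact ⟨fun a => p a → q a, LFP.imp hp hq, fun x a => by simp only [h1, h2]⟩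

end prop

theorem FO.congr {F G : Op m k} (h : FO F) (e : ∀ x X a, F x X a ↔ G x X a) : FO G := by
  have : F = G := by funext x X a; exact propext (e x X a)
  rw [← this]; exact h

theorem FO.or {F G : Op m k} (h : FO F) (h' : FO G) : FO (fun x X a => F x X a ∨ G x X a) :=
  (FO.not (FO.and h.not h'.not)).congr (fun x X a => by tauto)

theorem FO.imp {F G : Op m k} (h : FO F) (h' : FO G) : FO (fun x X a => F x X a → G x X a) :=
  (FO.not (FO.and h h'.not)).congr (fun x X a => by tauto)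

theorem FO.iff {F G : Op m k} (h : FO F) (h' : FO G) : FO (fun x X a => F x X a ↔ G x X a) :=
  (FO.and (FO.imp h h') (FO.imp h' h)).congr (fun x X a => by tauto)

theorem FO.tp {P : List Bool → (Fin k → ℕ) → Prop} (h : TP P) :
    FO (fun x (_ : (Fin m → ℕ) → Prop) a => P x a) := by
  obtain ⟨t, ht, h⟩ := h
  exact (FO.num ht).congr (fun x X a => (h x a).symm)

theorem FO.inpT {τ : List Bool → (Fin k → ℕ) → ℕ} (h : TF τ) :
    FO (fun x (_ : (Fin m → ℕ) → Prop) a => x[τ x a]? = some true) := by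
  obtain ⟨t, ht, h⟩ := h
  exact (FO.inp ht).congr (fun x X a => by rw [h])

theorem FO.oraT {τ : Fin m → List Bool → (Fin k → ℕ) → ℕ} (h : ∀ i, TF (τ i)) :
    FO (fun x (X : (Fin m → ℕ) → Prop) a => X (fun i => τ i x a)) := by
  choose t ht h using h
  exact (FO.ora ht).congr (fun x X a => by simp only [h])

theorem FO.allT {G : List Bool → ((Fin m → ℕ) → Prop) → (Fin k → ℕ) → ℕ → Prop} (e : ℕ)
    (h : FO (fun x X (a : Fin (k + 1) → ℕ) => G x X (Fin.tail a) (a 0))) :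
    FO (fun x X a => ∀ b < (x.length + 2) ^ e, G x X a b) :=
  (FO.all e h).congr (fun x X a => by simp)

theorem FO.exT {G : List Bool → ((Fin m → ℕ) → Prop) → (Fin k → ℕ) → ℕ → Prop} (e : ℕ)
    (h : FO (fun x X (a : Fin (k + 1) → ℕ) => G x X (Fin.tail a) (a 0))) :
    FO (fun x X a => ∃ b < (x.length + 2) ^ e, G x X a b) :=
  (FO.not (FO.allT e (G := fun x X a b => ¬ G x X a b) h.not)).congr (fun x X a => by
    simp only [not_forall, not_not, exists_prop])

end Vale.Agent.P313.AC
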