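import Mathlib

/-!
`BPL` is in logspace-uniform `AC^1`: frozen statements of the modules B, C, D, E2 (no machines).
-/

namespace Vale.Agent.P313.AC

open Finset

/-! ### Module B: adding many numbers -/

/-- Numbers below `V` which agree modulo all small numbers are equal. -/
def ModB1 : Prop := ∀ V L v w : ℕ, v < V → w < V → 2 * Nat.log 2 V + 3 ≤ L →
  (∀ q, 1 ≤ q → q < L → v % q = w % q) → v = w

/-- The adder. -/
def ModB2 : Prop := ∀ (V L f : ℕ) (c : ℕ → ℕ) (v : ℕ), 2 * Nat.log 2 V + 3 ≤ L → v < V →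
  (∑ i ∈ range f, c i) < V →
  ((∑ i ∈ range f, c i) = v ↔ ∀ q, 1 ≤ q → q < L → ∃ r < q ^ f,
    (∑ i ∈ range f, r / q ^ i % q) % q = v % q ∧ ∀ i < f, c i % q = r / q ^ i % q)

/-! ### Module C: estimating the size of a set -/

/-- The element `u` is sampled by the seed `g`; `w / P` is the sampling rate. -/
def sam (P w g u : ℕ) : Prop := (g % P * u + g / P) % P < w

/-- The bucket of `u` for the hash function `h`; `W` is the width of the buckets. -/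
def buc (P W h u : ℕ) : ℕ := (h % P * u + h / P) % P / W

/-- One step of the walk on pairs of numbers modulo `P` (the pair `(x, y)` has code `x + P y`). -/
def mst (P v s : ℕ) : ℕ :=
  if s = 0 then (v % P + 2 * (v / P)) % P + P * (v / P)
  else if s = 1 then (v % P + 2 * (v / P) + 1) % P + P * (v / P)
  else if s = 2 then v % P + P * ((v / P + 2 * (v % P)) % P)
  else if s = 3 then v % P + P * ((v / P + 2 * (v % P) + 1) % P)
  else if s = 4 then (v % P + 2 * (P - v / P)) % P + P * (v / P)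
  else if s = 5 then (v % P + (P - 1) + 2 * (P - v / P)) % P + P * (v / P)
  else if s = 6 then v % P + P * ((v / P + 2 * (P - v % P)) % P)
  else v % P + P * ((v / P + (P - 1) + 2 * (P - v % P)) % P)

/-- The walk given by `z`: it starts in `z % P ^ 2`, the labels are the base `8` digits of
`z / P ^ 2`. -/
def mwk (P z : ℕ) : ℕ → ℕ
  | 0 => z % P ^ 2
  | j + 1 => mst P (mwk P z j) (z / P ^ 2 / 8 ^ j % 8)

/-- The amplified form of the predicate `p` on `0, …, P ^ 2 - 1`. -/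
def Amp (P τ : ℕ) (p : ℕ → Prop) : Prop :=
  ∃ u < (P ^ 2 * 8 ^ τ) ^ 40, ∀ r < P ^ 2 * 8 ^ τ, ∃ i < 40, ∃ j < τ + 1,
    p (mwk P ((r + u / (P ^ 2 * 8 ^ τ) ^ i) % (P ^ 2 * 8 ^ τ)) j)

open Classical in
/-- Second moment of the sampled part. -/
def ModC1 : Prop := ∀ (P w : ℕ) (S : Finset ℕ), P.Prime → w ≤ P → (∀ u ∈ S, u < P) →
  ∑ g ∈ range (P ^ 2), ((P : ℤ) * #{u ∈ S | sam P w g u} - #S * w) ^ 2 ≤ (P : ℤ) ^ 3 * (#S * w)

/-- Hash functions which are injective on small sets. -/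
def ModC2 : Prop := ∀ (P K : ℕ) (S : Finset ℕ), P.Prime → 1 ≤ K → K ≤ P → (#S) ^ 2 ≤ K →
  (∀ u ∈ S, u < P) →
  ∃ h < P ^ 2, ∀ u ∈ S, ∀ u' ∈ S, buc P (P / K + 1) h u = buc P (P / K + 1) h u' → u = u'

open Classical in
/-- Amplification. -/
def ModC3 : Prop := ∀ (P τ : ℕ) (p : ℕ → Prop), 0 < P → 2 * Nat.log 2 P + 2 ≤ τ →
  (1000 * #{v ∈ range (P ^ 2) | ¬ p v} ≤ P ^ 2 → Amp P τ p) ∧
  (40 * (τ + 1) * #{v ∈ range (P ^ 2) | p v} < P ^ 2 → ¬ Amp P τ p)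

/-- Sampling rate for the size `K` (`K0` is the largest size which is counted exactly). -/
def wK (P K0 K : ℕ) : ℕ := if K ≤ K0 then P else K0 * P / K + 1

/-- Threshold for the size `K`; `Bm` is the inverse of the relative error. -/
def tK (P K0 Bm K : ℕ) : ℕ :=
  if K ≤ K0 then K else (2 * Bm + 1) * K * wK P K0 K / (2 * Bm * P) + 1

open Classical in
/-- Number of nonempty buckets. -/
noncomputable def nbk (P K0 Kb : ℕ) (S : Finset ℕ) (K g h : ℕ) : ℕ :=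
  #{v ∈ range Kb | ∃ u ∈ S, sam P (wK P K0 K) g u ∧ buc P (P / Kb + 1) h u = v}

/-- The test for the size `K`. -/
def Tst (P τ Bm K0 Kb : ℕ) (S : Finset ℕ) (K : ℕ) : Prop :=
  Amp P τ (fun g => ∃ h < P ^ 2, tK P K0 Bm K ≤ nbk P K0 Kb S K g h)

open Classical in
/-- The estimate of the size of a set of at most `U` numbers. -/
noncomputable def est (P τ Bm K0 Kb U : ℕ) (S : Finset ℕ) : ℕ :=
  Nat.findGreatest (fun K => Tst P τ Bm K0 Kb S K) U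

/-- Accuracy of the estimate. -/
def ModC4 : Prop := ∀ (P τ Bm K0 Kb U : ℕ) (S : Finset ℕ), P.Prime → U < P → Kb ≤ P →
  1 ≤ Bm → 2 * Nat.log 2 P + 2 ≤ τ → 16000 * Bm ^ 2 * (τ + 1) ≤ K0 → 16 * K0 ^ 2 ≤ Kb →
  (∀ u ∈ S, u < U) →
  est P τ Bm K0 Kb U S ≤ #S ∧ #S * Bm ≤ est P τ Bm K0 Kb U S * Bm + 2 * #S

/-! ### Module D: pipelined squaring -/

/-- First digit used on level `l`. -/
def t0 (b l : ℕ) : ℕ := 2 * l / b + 1

/-- The digit `i` of the level `l`. -/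
def dif (b l : ℕ) (A : ℕ → ℕ → ℕ → ℕ) (i x y : ℕ) : ℤ :=
  if i = t0 b l then (A i x y : ℤ) else (A i x y : ℤ) - A (i - 1) x y

/-- The pairs of digits used for the digit `t` of the next level. -/
def okp (b l t i j : ℕ) : Prop :=
  t0 b l ≤ i ∧ i ≤ t ∧ t0 b l ≤ j ∧ j ≤ t ∧ i + j ≤ t + t0 b l + 2

/-- Precision needed for a pair of digits. -/
def prc (b l t i j : ℕ) : ℕ := t + t0 b l + 3 - (i + j)

/-- Positive part of a product of digits (`sg = 0`) or of its negative (`sg = 1`). -/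
def prd (b l : ℕ) (A : ℕ → ℕ → ℕ → ℕ) (sg i j x y k : ℕ) : ℕ :=
  if sg = 0 then (dif b l A i x k * dif b l A j k y).toNat
  else (-(dif b l A i x k * dif b l A j k y)).toNat

open Classical in
/-- The value of a pair of digits, `apx m v` being an estimate of `∑ k < N, v k`. -/
noncomputable def pva (b : ℕ) (apx : ℕ → (ℕ → ℕ) → ℕ) (l t : ℕ) (A : ℕ → ℕ → ℕ → ℕ)
    (sg x y i j : ℕ) : ℕ :=
  if okp b l t i j then apx (prc b l t i j) (fun k => prd b l A sg i j x y k) else 0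

/-- One level. -/
noncomputable def nxA (b Q J : ℕ) (apx : ℕ → (ℕ → ℕ) → ℕ) (l : ℕ) (A : ℕ → ℕ → ℕ → ℕ) :
    ℕ → ℕ → ℕ → ℕ := fun t x y =>
  ((∑ i ∈ range J, ∑ j ∈ range J, pva b apx l t A 0 x y i j) -
    ∑ i ∈ range J, ∑ j ∈ range J, pva b apx l t A 1 x y i j) / Q

/-- The approximations `AA l t x y` of `Q` times the entry `(x, y)` of the power `2 ^ l`. -/
noncomputable def AA (b Q J : ℕ) (apx : ℕ → (ℕ → ℕ) → ℕ) (A0 : ℕ → ℕ → ℕ) :
    ℕ → ℕ → ℕ → ℕ → ℕ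
  | 0 => fun _ x y => A0 x y
  | l + 1 => nxA b Q J apx l (AA b Q J apx A0 l)

/-- Repeated squaring. -/
noncomputable def sqr (N : ℕ) (G : ℕ → ℕ → ℝ) : ℕ → ℕ → ℕ → ℝ
  | 0 => G
  | l + 1 => fun x y => ∑ k ∈ range N, sqr N G l x k * sqr N G l k y

/-- Accuracy of the pipeline. -/
def ModD : Prop := ∀ (N Q b J L tm : ℕ) (apx : ℕ → (ℕ → ℕ) → ℕ) (A0 : ℕ → ℕ → ℕ)
    (G : ℕ → ℕ → ℝ) (μ : ℝ), 1 ≤ b → 18 * (tm + 1) ^ 2 ≤ 2 ^ b → tm < J → t0 b L ≤ tm →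
  0 < μ → (∀ x < N, ∀ y < N, μ ≤ G x y) → (∀ x < N, ∑ y ∈ range N, G x y = 1) →
  (∀ x < N, ∀ y < N, (A0 x y : ℝ) = Q * G x y) → 2 * ((2 : ℝ) ^ b) ^ tm ≤ Q * μ →
  (∀ m v, 1 ≤ m → m ≤ tm + 3 → (∀ k < N, v k ≤ 4 * Q ^ 2) →
    apx m v ≤ ∑ k ∈ range N, v k ∧
    (∑ k ∈ range N, v k) * (2 ^ b) ^ m ≤ apx m v * (2 ^ b) ^ m + 2 * ∑ k ∈ range N, v k) →
  ∀ l ≤ L, ∀ t, t0 b l ≤ t → t ≤ tm → ∀ x < N, ∀ y < N,
    |(AA b Q J apx A0 l t x y : ℝ) / Q - sqr N G l x y| ≤ 4 ^ l / (2 ^ b) ^ t * sqr N G l x y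

/-! ### Module E2: mixing with the uniform distribution -/

/-- Probability to be in `y` after `t` steps from `x`. -/
noncomputable def wp (nxt : ℕ → ℕ → ℕ) : ℕ → ℕ → ℕ → ℝ
  | 0, x, y => if x = y then 1 else 0
  | t + 1, x, y => (wp nxt t (nxt x 0) y + wp nxt t (nxt x 1) y) / 2

/-- The mixed chain. -/
noncomputable def gmx (N g0 : ℕ) (nxt : ℕ → ℕ → ℕ) (x y : ℕ) : ℝ :=
  (1 - 1 / 2 ^ g0) * wp nxt 1 x y + 1 / 2 ^ g0 / N

/-- The mixed chain is stochastic, has large entries, and is close to the chain. -/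
def ModE2 : Prop := ∀ (N L g0 : ℕ) (nxt : ℕ → ℕ → ℕ), 0 < N → L + 6 ≤ g0 →
  (∀ x < N, ∀ b, nxt x b < N) →
  (∀ x < N, ∀ y < N, 1 / 2 ^ g0 / N ≤ gmx N g0 nxt x y) ∧
  (∀ x < N, ∑ y ∈ range N, gmx N g0 nxt x y = 1) ∧
  ∀ x < N, ∀ y < N, |sqr N (gmx N g0 nxt) L x y - wp nxt (2 ^ L) x y| ≤ 1 / 32

end Vale.Agent.P313.AC
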