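import Vale.Agent.P313.AC.SpecE

/-!
`BPL` is in logspace-uniform `AC^1`: circuits, uniformity, first-order operators and their
iteration (module A), final statement.
-/

namespace Vale.Agent.P313.AC

open Finset

/-! ### Circuits -/

/-- Gates: input bits, and AND, OR, negated OR (a NOT gate when it has one input) of any number
of gates. -/
inductive Gate where
  | input (i : ℕ)
  | and
  | or
  | nor
  deriving DecidableEq

/-- A circuit: gates `0, …, size - 1`; `wire g h` means that the gate `h` is an input of the
gate `g`. -/
structure Circuit where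
  size : ℕ
  gate : ℕ → Gate
  wire : ℕ → ℕ → Prop
  out : ℕ

namespace Circuit

variable (C : Circuit)

/-- The value of a gate on the input `x`, following wires `d - 1` times. If all paths which end
in the gate have fewer than `d` wires this is the value of the gate. -/
def val (x : List Bool) : ℕ → ℕ → Prop
  | 0, _ => False
  | d + 1, g =>
    match C.gate g with
    | Gate.input i => x[i]? = some true
    | Gate.and => ∀ h < C.size, C.wire g h → val x d h
    | Gate.or => ∃ h < C.size, C.wire g h ∧ val x d h
    | Gate.nor => ∀ h < C.size, C.wire g h → ¬ val x d h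

/-- The gates can be arranged in `d` levels, every wire going to a higher level: the circuit has
no cycles and its depth is less than `d`. -/
def DepthLT (d : ℕ) : Prop :=
  ∃ lev : ℕ → ℕ, (∀ g < C.size, lev g < d) ∧
    ∀ g < C.size, ∀ h < C.size, C.wire g h → lev h < lev g

/-- Questions about the circuit. -/
def query (q g h : ℕ) : Prop :=
  g < C.size ∧ ((q = 0 ∧ h < C.size ∧ C.wire g h) ∨ (q = 1 ∧ C.gate g = Gate.and) ∨
    (q = 2 ∧ C.gate g = Gate.or) ∨ (q = 3 ∧ C.gate g = Gate.nor) ∨
    (q = 4 ∧ C.gate g = Gate.input h) ∨ (q = 5 ∧ C.out = g) ∨ q = 6)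

end Circuit

/-- The word coding a list of numbers in unary. -/
def word (l : List ℕ) : List Bool := l.flatMap (fun k => List.replicate k true ++ [false])

/-- The direct connection language of a family of circuits, numbers written in unary. -/
def connLang (C : ℕ → Circuit) : Set (List Bool) :=
  {w | ∃ n q g h, w = word [n, q, g, h] ∧ (C n).query q g h}

/-- Languages decided by circuits of polynomial size with gates of unbounded fan-in and depth
`O(d(n))` (at least constant), the direct connection language being decided by a deterministic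
machine in logarithmic space and polynomial time. -/
def UAC (d : ℕ → ℕ) (A : Set (List Bool)) : Prop :=
  ∃ (C : ℕ → Circuit) (c : ℕ),
    (∀ n, (C n).size ≤ (n + 2) ^ c ∧ (C n).out < (C n).size ∧ (C n).DepthLT (c * d n + c) ∧
      ∀ g < (C n).size, ∀ i, (C n).gate g = Gate.input i → i < n) ∧
    DTISP (fun n => n + 2) (fun n => Nat.log 2 (n + 2)) (connLang C) ∧
    ∀ x : List Bool, x ∈ A ↔ (C x.length).val x (c * d x.length + c) (C x.length).out

/-- Logspace-uniform `AC^1`. -/
def UniformAC1 (A : Set (List Bool)) : Prop := UAC (fun n => Nat.log 2 (n + 2)) A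

/-! ### First-order operators -/

/-- Operators: input word, relation on `m` numbers, `k` numbers. -/
abbrev Op (m k : ℕ) := List Bool → ((Fin m → ℕ) → Prop) → (Fin k → ℕ) → Prop

/-- First-order definable operators with numeric predicates in logarithmic space. The variable
`0` of numeric predicates and functions is the length of the input. -/
inductive FO {m : ℕ} : {k : ℕ} → Op m k → Prop
  | num {k : ℕ} {P : (Fin (k + 1) → ℕ) → Prop} (h : NP P) :
      FO (fun x _ (a : Fin k → ℕ) => P (Fin.cons x.length a))
  | inp {k : ℕ} {t : (Fin (k + 1) → ℕ) → ℕ} (h : NF t) :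
      FO (fun x _ (a : Fin k → ℕ) => x[t (Fin.cons x.length a)]? = some true)
  | ora {k : ℕ} {t : Fin m → (Fin (k + 1) → ℕ) → ℕ} (h : ∀ i, NF (t i)) :
      FO (fun x X (a : Fin k → ℕ) => X (fun i => t i (Fin.cons x.length a)))
  | not {k : ℕ} {F : Op m k} (h : FO F) : FO (fun x X a => ¬ F x X a)
  | and {k : ℕ} {F G : Op m k} (h : FO F) (h' : FO G) : FO (fun x X a => F x X a ∧ G x X a)
  | all {k : ℕ} {F : Op m (k + 1)} (e : ℕ) (h : FO F) :
      FO (fun x X (a : Fin k → ℕ) => ∀ b < (x.length + 2) ^ e, F x X (Fin.cons b a))

/-- Iteration of an operator, restricted to numbers below `(n + 2) ^ e`. -/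
def it {m : ℕ} (F : Op m m) (e : ℕ) (x : List Bool) : ℕ → (Fin m → ℕ) → Prop
  | 0 => fun _ => False
  | t + 1 => fun a => (∀ i, a i < (x.length + 2) ^ e) ∧ F x (it F e x t) a

/-- Iterating an operator `T` times gives uniform circuits of depth `O(T)`. -/
def ModA : Prop := ∀ (m : ℕ) (F : Op m m) (e : ℕ) (T : ℕ → ℕ) (a0 : ℕ → Fin m → ℕ),
  FO F → NF (fun a : Fin 1 → ℕ => T (a 0)) → (∀ i, NF (fun a : Fin 1 → ℕ => a0 (a 0) i)) →
  UAC T {x | it F e x (T x.length) (a0 x.length)}

/-- The final statement. -/
def Goal : Prop := ∀ A : Set (List Bool), BPL A → UniformAC1 A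

end Vale.Agent.P313.AC
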