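import Vale.Agent.P313.BundleTS
import Vale.Agent.P313.AC.Spec

/-!
`BPL` is in logspace-uniform `AC^1`: numeric functions, statement of module E (the machine), the
parameters and the statement of module G.
-/

namespace Vale.Agent.P313.AC

open Finset

/-- Functions of `k` numbers computed in logarithmic space. -/
def NF {k : ℕ} (F : (Fin k → ℕ) → ℕ) : Prop := LF (fun _ a => F a : Fn k)

/-- Predicates of `k` numbers decided in logarithmic space. -/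
def NP {k : ℕ} (P : (Fin k → ℕ) → Prop) : Prop := LFP (fun _ a => P a)

/-- The code of the symbol in cell `p` of the input tape. -/
def symc (x : List Bool) (p : ℕ) : ℕ :=
  match inSym x p with
  | InSym.lmark => 0
  | InSym.rmark => 1
  | InSym.bit false => 2
  | InSym.bit true => 3

/-- Number of bits of the input length. -/
def lam (n : ℕ) : ℕ := Nat.log 2 (n + 2)

/-- The chain of a machine: `0` is the accepting state; the next state `nx n s u b` is a numeric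
function of the length `n`, the symbol `s` under the input head, the state `u` and the coin `b`;
`ps n u` is the position of the input head. -/
def ModE : Prop := ∀ A : Set (List Bool), BPL A →
  ∃ (c : ℕ) (st : ℕ → ℕ) (ps : ℕ → ℕ → ℕ) (nx : ℕ → ℕ → ℕ → ℕ → ℕ),
    1 ≤ c ∧ NF (fun a : Fin 1 → ℕ => st (a 0)) ∧ NF (fun a : Fin 2 → ℕ => ps (a 0) (a 1)) ∧
    NF (fun a : Fin 4 → ℕ => nx (a 0) (a 1) (a 2) (a 3)) ∧
    (∀ n, st n < 2 ^ (c * lam n)) ∧
    (∀ n s b, ∀ u < 2 ^ (c * lam n), nx n s u b < 2 ^ (c * lam n)) ∧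
    ∀ x : List Bool,
      (x ∈ A → 2 / 3 ≤ wp (fun u b => nx x.length (symc x (ps x.length u)) u b)
        (2 ^ (c * lam x.length)) (st x.length) 0) ∧
      (x ∉ A → wp (fun u b => nx x.length (symc x (ps x.length u)) u b)
        (2 ^ (c * lam x.length)) (st x.length) 0 ≤ 1 / 3)

/-! ### Parameters -/

/-- The numeric parameters for one input length. -/
structure Pr where
  /-- fan-in of the adders -/
  f : ℕ
  /-- number of bits of the base `B = 2 ^ b` -/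
  b : ℕ
  /-- number of states of the chain -/
  N : ℕ
  /-- number of squarings -/
  L : ℕ
  /-- mixing -/
  g0 : ℕ
  /-- last digit -/
  tm : ℕ
  /-- scale -/
  Q : ℕ
  /-- modulus -/
  P : ℕ
  /-- length of the walks -/
  τ : ℕ
  /-- bound for all values -/
  V : ℕ
  /-- bound for the moduli of the adders -/
  Lq : ℕ

/-- Capacity of one term of a sum. -/
def Pr.C (p : Pr) : ℕ := 4 * p.Q ^ 2 + 1

/-- The universe for the sets whose size is estimated. -/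
def Pr.U (p : Pr) : ℕ := p.N * p.C

/-- The conditions on the parameters; `c` is the constant of module E, `κ`, `j0` are constants. -/
structure Good (c κ j0 n : ℕ) (p : Pr) : Prop where
  f2 : 2 ≤ p.f
  b1 : 1 ≤ p.b
  hB : 2 ^ p.b = p.f ^ κ
  hN : p.N = 2 ^ (c * lam n)
  hL : p.L = c * lam n
  hg : p.L + 6 ≤ p.g0
  htm : t0 p.b p.L ≤ p.tm
  hE : 100 * 4 ^ p.L ≤ (2 ^ p.b) ^ p.tm
  hJ : p.tm < p.f ^ j0
  hB1 : 18 * (p.tm + 1) ^ 2 ≤ 2 ^ p.b
  hB2 : 16000 * (p.τ + 1) ≤ 2 ^ p.b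
  hQ1 : 2 ^ (p.g0 + 1) * p.N ∣ p.Q
  hQ2 : 2 * (2 ^ p.b) ^ p.tm * (2 ^ p.g0 * p.N) ≤ p.Q
  hP : p.P.Prime
  hU : p.U < p.P
  hK : (2 ^ p.b) ^ (4 * (p.tm + 3) + 3) ≤ p.P
  hτ : 2 * Nat.log 2 p.P + 2 ≤ p.τ
  hV : p.f ^ (2 * j0) * p.U + p.P + 4 * p.Q < p.V
  hLq : 2 * Nat.log 2 p.V + 3 ≤ p.Lq

/-- The parameters are computed in logarithmic space and everything has polynomial size. -/
structure GoodF (κ j0 e : ℕ) (p : ℕ → Pr) : Prop where
  nf : NF (fun a : Fin 1 → ℕ => (p (a 0)).f)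
  nb : NF (fun a : Fin 1 → ℕ => (p (a 0)).b)
  nN : NF (fun a : Fin 1 → ℕ => (p (a 0)).N)
  nL : NF (fun a : Fin 1 → ℕ => (p (a 0)).L)
  ng0 : NF (fun a : Fin 1 → ℕ => (p (a 0)).g0)
  ntm : NF (fun a : Fin 1 → ℕ => (p (a 0)).tm)
  nQ : NF (fun a : Fin 1 → ℕ => (p (a 0)).Q)
  nP : NF (fun a : Fin 1 → ℕ => (p (a 0)).P)
  nτ : NF (fun a : Fin 1 → ℕ => (p (a 0)).τ)
  nV : NF (fun a : Fin 1 → ℕ => (p (a 0)).V)
  nLq : NF (fun a : Fin 1 → ℕ => (p (a 0)).Lq)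
  nB : NF (fun a : Fin 1 → ℕ => 2 ^ (p (a 0)).b)
  hV : ∀ n, (p n).V ≤ (n + 2) ^ e
  hR : ∀ n, ((p n).P ^ 2 * 8 ^ (p n).τ) ^ 40 ≤ (n + 2) ^ e
  hq : ∀ n, (p n).Lq ^ (p n).f ≤ (n + 2) ^ e
  hG : ∀ n, 2 ^ (p n).g0 ≤ (n + 2) ^ e
  hL : ∀ n, (p n).L + (p n).tm ≤ e * lam n

/-- Good parameters exist. -/
def ModG : Prop := ∀ c : ℕ, 1 ≤ c → ∃ (κ j0 e : ℕ) (p : ℕ → Pr), 1 ≤ κ ∧ 1 ≤ j0 ∧
  (∀ n, Good c κ j0 n (p n)) ∧ GoodF κ j0 e p

end Vale.Agent.P313.AC
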